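import Mathlib
import Vale.Agent.P092.RC.Cc
import Vale.Agent.P092.H113.IrrIsoStmt

/-!
TEAM C, [A-TYPE]: the inclusion of a lattice and its contragredient are embeddings as lattices.
-/

set_option linter.all false

open Matrix TopologicalSpace

namespace Vale.Agent.P092.H945

open Vale.Agent.P092.RC

variable {k : Type} [NontriviallyNormedField k] {m : ℕ}

theorem ct_val (g : GG k m) : (ct g).1 = (g⁻¹).1ᵀ := rfl

theorem ct_ct (g : GG k m) : (ct : GG k m →* GG k m) (ct g) = g := by
  apply Subtype.ext
  rw [ct_val, ← map_inv, ct_val, inv_inv, transpose_transpose]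

theorem ct_inj : Function.Injective (ct : GG k m →* GG k m) :=
  Function.LeftInverse.injective ct_ct

theorem ct_cont : Continuous (ct : GG k m →* GG k m) := by
  haveI : IsTopologicalGroup (SpecialLinearGroup (Fin (m + 1)) k) :=
    Matrix.SpecialLinearGroup.topologicalGroup
  refine Continuous.subtype_mk ?_ _
  have h1 : Continuous fun g : SpecialLinearGroup (Fin (m + 1)) k => g⁻¹ := continuous_inv
  exact (continuous_subtype_val.comp h1).matrix_transpose

/-- The contragredient automorphism. -/
noncomputable def ctE : GG k m ≃ₜ* GG k m where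
  toFun := ct
  invFun := ct
  left_inv := ct_ct
  right_inv := ct_ct
  map_mul' := map_mul ct
  continuous_toFun := ct_cont
  continuous_invFun := ct_cont

theorem emb_ct {Γ : Type} [Group Γ] {q : Γ →* GG k m} (h : Emb q) :
    Emb ((ct : GG k m →* GG k m).comp q) where
  inj := ct_inj.comp h.inj
  lat := by
    have h1 := H113.lat_map (ctE : GG k m ≃ₜ* GG k m) h.lat
    have h2 : q.range.map (ctE : GG k m ≃ₜ* GG k m).toMulEquiv.toMonoidHom =
        ((ct : GG k m →* GG k m).comp q).range := by
      rw [MonoidHom.range_comp]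
      rfl
    rwa [h2] at h1

theorem emb_sub {Γ : Subgroup (GG k m)} (h : H515.St.IsLattice Γ) : Emb Γ.subtype where
  inj := Γ.subtype_injective
  lat := by rwa [Subgroup.range_subtype]

theorem emb_ct_sub {Γ : Subgroup (GG k m)} (h : H515.St.IsLattice Γ) :
    Emb ((ct : GG k m →* GG k m).comp Γ.subtype) := emb_ct (emb_sub h)

end Vale.Agent.P092.H945
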