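import Vale.Agent.P092.H945.TorE
import Vale.Agent.P092.H628.TorGlue

/-!
The torsion theorem in the form used by the assembly.
-/

set_option linter.all false

namespace Vale.Agent.P092.H945

theorem torStmt : Vale.Agent.P092.H628.TorStmt := by
  intro Γ Λ H _ _ _ _ _ lam R ξ 𝒰 Θ₀ h hV hΛ s hs X hX
  exact tor h hV hΛ hs hX

end Vale.Agent.P092.H945
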