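import Vale.Agent.P092.H945.TorC

/-!
Torsion theorem: the ratio of the two traces is constant.
-/

set_option linter.all false

open scoped InnerProductSpace ENNReal Pointwise
open Filter Topology ContinuousLinearMap

namespace Vale.Agent.P092.H945

open Vale.Agent.P092.H160 (RegRep Cmm)
open Vale.Agent.P092.H628

variable {Γ Λ : Type} [Group Γ] [Group Λ] {H : Type} [NormedAddCommGroup H]
  [InnerProductSpace ℂ H] [CompleteSpace H]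

variable {lam : Γ →* (H →L[ℂ] H)} {R : Λ →* (H →L[ℂ] H)} {ξ : H} {𝒰 : Set (Subgroup Γ)}
  {Θ₀ : Subgroup Γ} {C D : Subgroup Λ} {e f x y : H →L[ℂ] H}

theorem relIndex_unit (hV : VolBd 𝒰 Θ₀) {U : Subgroup Γ} (hU : U ∈ 𝒰) (hUΘ : U ≤ Θ₀) :
    U.relIndex Θ₀ ≠ 0 := by
  by_cases h : U = ⊤
  · have h1 : Θ₀ ≤ U := h ▸ le_top
    rw [Subgroup.relIndex_eq_one.mpr h1]
    exact one_ne_zero
  · exact (hV.2 U hU h U hU le_rfl hUΘ).2.1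

theorem card_quot {G : Type} [Group G] {K' K : Subgroup G} (h : K'.relIndex K ≠ 0) :
    ((ENat.card (K ⧸ K'.subgroupOf K) : ℕ∞) : ℝ≥0∞) = (K'.relIndex K : ℝ≥0∞) := by
  haveI : (K'.subgroupOf K).FiniteIndex := ⟨h⟩
  haveI : Finite (K ⧸ K'.subgroupOf K) := Subgroup.finite_quotient_of_finiteIndex
  rw [ENat.card_eq_coe_natCard]
  rfl

/-- The normalised left trace. -/
noncomputable def Mh (lam : Γ →* (H →L[ℂ] H)) (ξ : H) (𝒰 : Set (Subgroup Γ)) (Θ₀ : Subgroup Γ)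
    (x : H →L[ℂ] H) : ℝ≥0∞ :=
  ⨆ U : {U : Subgroup Γ // U ∈ 𝒰 ∧ U ≤ Θ₀ ∧ Com lam U x},
    nn lam U.1 ξ x / (U.1.relIndex Θ₀ : ℝ≥0∞)

theorem Mh_aux (h : Sys lam R ξ 𝒰) (hV : VolBd 𝒰 Θ₀) {U U' : Subgroup Γ}
    (hU : U ∈ 𝒰) (hUΘ : U ≤ Θ₀) (hUx : Com lam U x) (hU' : U' ∈ 𝒰) (hle : U' ≤ U) :
    nn lam U' ξ x / (U'.relIndex Θ₀ : ℝ≥0∞) = nn lam U ξ x / (U.relIndex Θ₀ : ℝ≥0∞) := by
  have h1 := Subgroup.relIndex_mul_relIndex U' U Θ₀ hle hUΘ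
  have h2 := relIndex_unit hV hU' (hle.trans hUΘ)
  have h3 : U'.relIndex U ≠ 0 := fun h0 => h2 (by rw [← h1, h0, zero_mul])
  rw [nn_sub hle h.regL hUx, card_quot h3, ← h1, Nat.cast_mul,
    ENNReal.mul_div_mul_left _ _ (by exact_mod_cast h3) (by simp)]

theorem Mh_eq (h : Sys lam R ξ 𝒰) (hV : VolBd 𝒰 Θ₀) {U : Subgroup Γ}
    (hU : U ∈ 𝒰) (hUΘ : U ≤ Θ₀) (hUx : Com lam U x) :
    Mh lam ξ 𝒰 Θ₀ x = nn lam U ξ x / (U.relIndex Θ₀ : ℝ≥0∞) := by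
  unfold Mh
  have h1 : ∀ V : {U : Subgroup Γ // U ∈ 𝒰 ∧ U ≤ Θ₀ ∧ Com lam U x},
      nn lam V.1 ξ x / (V.1.relIndex Θ₀ : ℝ≥0∞) = nn lam U ξ x / (U.relIndex Θ₀ : ℝ≥0∞) := by
    rintro ⟨V, hV1, hV2, hV3⟩
    have hi := h.inf _ hU _ hV1
    rw [← Mh_aux h hV hU hUΘ hUx hi inf_le_left, ← Mh_aux h hV hV1 hV2 hV3 hi inf_le_right]
  simp only [h1]
  haveI : Nonempty {U : Subgroup Γ // U ∈ 𝒰 ∧ U ≤ Θ₀ ∧ Com lam U x} := ⟨⟨U, hU, hUΘ, hUx⟩⟩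
  rw [iSup_const]

theorem nn_of_Mh (h : Sys lam R ξ 𝒰) (hV : VolBd 𝒰 Θ₀) {U : Subgroup Γ}
    (hU : U ∈ 𝒰) (hUΘ : U ≤ Θ₀) (hUx : Com lam U x) :
    nn lam U ξ x = Mh lam ξ 𝒰 Θ₀ x * (U.relIndex Θ₀ : ℝ≥0∞) := by
  have h1 := relIndex_unit hV hU hUΘ
  rw [Mh_eq h hV hU hUΘ hUx, ENNReal.div_mul_cancel (by exact_mod_cast h1) (by simp)]

theorem Mh_le (h : Sys lam R ξ 𝒰) (hV : VolBd 𝒰 Θ₀) (he : Mn lam R ξ 𝒰 C e) (hC : C.index = 0)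
    {p : H →L[ℂ] H} (hp : adjoint p = p) (hpl : Cmm lam p) (hpe : p * e = e) :
    Mh lam ξ 𝒰 Θ₀ e ≤ ‖p ξ‖ₑ ^ 2 := by
  obtain ⟨U, hU, hUΘ, hUe, _⟩ := exists_U h hV he.mem he.mem
  have h1 := relIndex_unit hV hU hUΘ
  rw [Mh_eq h hV hU hUΘ hUe]
  refine ENNReal.div_le_of_le_mul ?_
  rw [mul_comm]
  exact he.bound h hC hV hU hUΘ hUe hp hpl hpe

theorem Mh_ne_zero (h : Sys lam R ξ 𝒰) (hV : VolBd 𝒰 Θ₀) (he : Mn lam R ξ 𝒰 C e) :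
    Mh lam ξ 𝒰 Θ₀ e ≠ 0 := by
  obtain ⟨U, hU, hUΘ, hUe, _⟩ := exists_U h hV he.mem he.mem
  rw [Mh_eq h hV hU hUΘ hUe]
  refine (ENNReal.div_pos (fun h0 => he.ne (nn_eq_zero h.regL hUe h0)) (by simp)).ne'

theorem Mh_actR (h : Sys lam R ξ 𝒰) (hV : VolBd 𝒰 Θ₀) (he : Mn lam R ξ 𝒰 C e) (w : Λ) :
    Mh lam ξ 𝒰 Θ₀ (R w * e * R w⁻¹) = Mh lam ξ 𝒰 Θ₀ e := by
  obtain ⟨U, hU, hUΘ, hUe, hUf⟩ := exists_U h hV he.mem (Mn.actR h he w).mem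
  rw [Mh_eq h hV hU hUΘ hUe, Mh_eq h hV hU hUΘ hUf]
  congr 1
  have hw : ∀ w : Λ, Com lam U (R w) := fun w => Com.of_cmm (h.comRL w)
  rw [nn_isom_right h.regL ((hw w).mul hUe) (hw _) (fun v => by
    rw [h.regR.adj, enorm_map h.regR]), nn_isom_left (fun v => enorm_map h.regR w v)]

theorem relIndex_mem (h : Sys lam R ξ 𝒰) (hV : VolBd 𝒰 Θ₀) (he : Mn lam R ξ 𝒰 C e)
    (hf : Mn lam R ξ 𝒰 D f) (hC : C.index = 0) (hD : D.index = 0) (hfe : f * e ≠ 0) :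
    Mh lam ξ 𝒰 Θ₀ e * nn R D ξ f * (C.relIndex D : ℝ≥0∞) =
      Mh lam ξ 𝒰 Θ₀ f * nn R C ξ e * (D.relIndex C : ℝ≥0∞) := by
  have hef : e * f ≠ 0 := by
    intro h0
    apply hfe
    have := congrArg adjoint h0
    rwa [adj_mul, hf.adj, he.adj, map_zero] at this
  have hi1 := relIndex_ne h hV he hf hC hfe
  have hi2 := relIndex_ne h hV hf he hD hef
  obtain ⟨U, hU, hUΘ, hUe, hUf⟩ := exists_U h hV he.mem hf.mem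
  obtain ⟨l₁, hl₁, hq₁⟩ := cmp_aux h he hf
  obtain ⟨l₂, hl₂, hq₂⟩ := cmp_aux h hf he
  have n1 := cmp_N h he hf hq₁
  have n2 := cmp_N h hf he hq₂
  have m1 := cmp_M h he hf hq₁ hUe hUf
  have m2 := cmp_M h hf he hq₂ hUf hUe
  rw [card_quot hi1, nn_of_Mh h hV hU hUΘ hUe] at m1
  rw [card_quot hi2, nn_of_Mh h hV hU hUΘ hUf] at m2
  have hcom : Com R (C ⊓ D) (f * e) :=
    (hf.mem.comR.mono inf_le_right).mul (he.mem.comR.mono inf_le_left)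
  have hN : nn R (D ⊓ C) ξ (e * f) = nn R (C ⊓ D) ξ (f * e) := by
    rw [inf_comm, ← nn_adjoint h.regR hcom, adj_mul, hf.adj, he.adj]
  have hM : nn lam U ξ (e * f) = nn lam U ξ (f * e) := by
    rw [← nn_adjoint h.regL (hUf.mul hUe), adj_mul, hf.adj, he.adj]
  rw [hN] at n2
  rw [hM] at m2
  set N' := nn R (C ⊓ D) ξ (f * e) with hN'
  set M := nn lam U ξ (f * e) with hMd
  have hN0 : N' ≠ 0 := fun h0 => hfe (nn_eq_zero h.regR hcom h0)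
  have hM0 : M ≠ 0 := fun h0 => hfe (nn_eq_zero h.regL (hUf.mul hUe) h0)
  have hl₁0 : l₁ ≠ 0 := fun h0 => hN0 (by rw [← n1, h0, zero_mul])
  have hl₂0 : l₂ ≠ 0 := fun h0 => hN0 (by rw [← n2, h0, zero_mul])
  have hu : (U.relIndex Θ₀ : ℝ≥0∞) ≠ 0 := by exact_mod_cast relIndex_unit hV hU hUΘ
  have hMt : M ≠ ⊤ := by
    intro h0
    have h1 : l₁ * (Mh lam ξ 𝒰 Θ₀ e * (U.relIndex Θ₀ : ℝ≥0∞)) ≠ ⊤ := by
      refine ENNReal.mul_ne_top hl₁ ?_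
      rw [← nn_of_Mh h hV hU hUΘ hUe]
      exact fin_M h hV he hC hU hUΘ hUe
    apply h1
    rw [m1, h0, ENNReal.mul_top (by exact_mod_cast hi1)]
  have key : (l₁ * l₂ * M * (U.relIndex Θ₀ : ℝ≥0∞)) *
      (Mh lam ξ 𝒰 Θ₀ e * nn R D ξ f * (C.relIndex D : ℝ≥0∞)) =
      (l₁ * l₂ * M * (U.relIndex Θ₀ : ℝ≥0∞)) *
      (Mh lam ξ 𝒰 Θ₀ f * nn R C ξ e * (D.relIndex C : ℝ≥0∞)) := by
    calc (l₁ * l₂ * M * (U.relIndex Θ₀ : ℝ≥0∞)) *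
          (Mh lam ξ 𝒰 Θ₀ e * nn R D ξ f * (C.relIndex D : ℝ≥0∞))
        = (l₁ * (Mh lam ξ 𝒰 Θ₀ e * (U.relIndex Θ₀ : ℝ≥0∞))) * (l₂ * nn R D ξ f) *
          ((C.relIndex D : ℝ≥0∞) * M) := by ring
      _ = ((D.relIndex C : ℝ≥0∞) * M) * N' *
          (l₂ * (Mh lam ξ 𝒰 Θ₀ f * (U.relIndex Θ₀ : ℝ≥0∞))) := by rw [m1, n2, m2]
      _ = ((D.relIndex C : ℝ≥0∞) * M) * (l₁ * nn R C ξ e) *
          (l₂ * (Mh lam ξ 𝒰 Θ₀ f * (U.relIndex Θ₀ : ℝ≥0∞))) := by rw [n1]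
      _ = _ := by ring
  have hc0 : l₁ * l₂ * M * (U.relIndex Θ₀ : ℝ≥0∞) ≠ 0 :=
    mul_ne_zero (mul_ne_zero (mul_ne_zero hl₁0 hl₂0) hM0) hu
  have hct : l₁ * l₂ * M * (U.relIndex Θ₀ : ℝ≥0∞) ≠ ⊤ :=
    ENNReal.mul_ne_top (ENNReal.mul_ne_top (ENNReal.mul_ne_top hl₁ hl₂) hMt) (by simp)
  exact (ENNReal.mul_right_inj hc0 hct).mp key

/-- The ratio of the two traces. -/
noncomputable def rat (lam : Γ →* (H →L[ℂ] H)) (R : Λ →* (H →L[ℂ] H)) (ξ : H)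
    (𝒰 : Set (Subgroup Γ)) (Θ₀ : Subgroup Γ) (C : Subgroup Λ) (x : H →L[ℂ] H) : ℝ≥0∞ :=
  Mh lam ξ 𝒰 Θ₀ x / nn R C ξ x

theorem one_le (h : Sys lam R ξ 𝒰) (he : Mn lam R ξ 𝒰 C e) : 1 ≤ nn R C ξ e :=
  one_le_nn h he.mem he.ne he.idem

theorem nn_ne_zero (h : Sys lam R ξ 𝒰) (he : Mn lam R ξ 𝒰 C e) : nn R C ξ e ≠ 0 :=
  (lt_of_lt_of_le zero_lt_one (one_le h he)).ne'

theorem rat_le (h : Sys lam R ξ 𝒰) (hV : VolBd 𝒰 Θ₀) (he : Mn lam R ξ 𝒰 C e) (hC : C.index = 0)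
    {p : H →L[ℂ] H} (hp : adjoint p = p) (hpl : Cmm lam p) (hpe : p * e = e) :
    rat lam R ξ 𝒰 Θ₀ C e ≤ ‖p ξ‖ₑ ^ 2 := by
  refine le_trans ?_ (Mh_le h hV he hC hp hpl hpe)
  unfold rat
  exact ENNReal.div_le_of_le_mul (le_mul_of_one_le_right zero_le (one_le h he))

theorem rat_le_one (h : Sys lam R ξ 𝒰) (hV : VolBd 𝒰 Θ₀) (he : Mn lam R ξ 𝒰 C e)
    (hC : C.index = 0) : rat lam R ξ 𝒰 Θ₀ C e ≤ 1 := by
  have := rat_le h hV he hC (p := 1) (by rw [← star_eq_adjoint, star_one]) H160.Cmm.one (one_mul e)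
  rwa [one_apply_eq_self, esq, h.regL.norm_one, one_pow, ENNReal.ofReal_one] at this

theorem rat_ne_zero (h : Sys lam R ξ 𝒰) (hV : VolBd 𝒰 Θ₀) (he : Mn lam R ξ 𝒰 C e) :
    rat lam R ξ 𝒰 Θ₀ C e ≠ 0 :=
  (ENNReal.div_pos (Mh_ne_zero h hV he) he.mem.fin).ne'

theorem rat_ne_top (h : Sys lam R ξ 𝒰) (hV : VolBd 𝒰 Θ₀) (he : Mn lam R ξ 𝒰 C e)
    (hC : C.index = 0) : rat lam R ξ 𝒰 Θ₀ C e ≠ ⊤ :=
  ne_top_of_le_ne_top ENNReal.one_ne_top (rat_le_one h hV he hC)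

theorem rat_rel (h : Sys lam R ξ 𝒰) (hV : VolBd 𝒰 Θ₀) (he : Mn lam R ξ 𝒰 C e)
    (hf : Mn lam R ξ 𝒰 D f) (hC : C.index = 0) (hD : D.index = 0) (hfe : f * e ≠ 0) :
    rat lam R ξ 𝒰 Θ₀ C e * (C.relIndex D : ℝ≥0∞) =
      rat lam R ξ 𝒰 Θ₀ D f * (D.relIndex C : ℝ≥0∞) := by
  have h1 := relIndex_mem h hV he hf hC hD hfe
  have e0 := nn_ne_zero h he
  have f0 := nn_ne_zero h hf
  have et := he.mem.fin
  have ft := hf.mem.fin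
  unfold rat
  rw [ENNReal.div_eq_inv_mul, ENNReal.div_eq_inv_mul]
  calc (nn R C ξ e)⁻¹ * Mh lam ξ 𝒰 Θ₀ e * (C.relIndex D : ℝ≥0∞)
      = (nn R C ξ e)⁻¹ * (nn R D ξ f)⁻¹ *
        (Mh lam ξ 𝒰 Θ₀ e * nn R D ξ f * (C.relIndex D : ℝ≥0∞)) := by
        calc _ = (nn R C ξ e)⁻¹ * Mh lam ξ 𝒰 Θ₀ e * (C.relIndex D : ℝ≥0∞) *
              ((nn R D ξ f)⁻¹ * nn R D ξ f) := by rw [ENNReal.inv_mul_cancel f0 ft, mul_one]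
          _ = _ := by ring
    _ = (nn R C ξ e)⁻¹ * (nn R D ξ f)⁻¹ *
        (Mh lam ξ 𝒰 Θ₀ f * nn R C ξ e * (D.relIndex C : ℝ≥0∞)) := by rw [h1]
    _ = (nn R D ξ f)⁻¹ * Mh lam ξ 𝒰 Θ₀ f * (D.relIndex C : ℝ≥0∞) *
        ((nn R C ξ e)⁻¹ * nn R C ξ e) := by ring
    _ = _ := by rw [ENNReal.inv_mul_cancel e0 et, mul_one]

theorem rat_actR (h : Sys lam R ξ 𝒰) (hV : VolBd 𝒰 Θ₀) (he : Mn lam R ξ 𝒰 C e) (w : Λ) :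
    rat lam R ξ 𝒰 Θ₀ (cjg w C) (R w * e * R w⁻¹) = rat lam R ξ 𝒰 Θ₀ C e := by
  unfold rat
  rw [Mh_actR h hV he, nn_actR h he]

/-- The ratio is constant. -/
theorem rat_const (h : Sys lam R ξ 𝒰) (hV : VolBd 𝒰 Θ₀)
    (hΛ : ∀ g : Λ, g ≠ 1 → Set.Infinite {y : Λ | ∃ k : Λ, y = k * g * k⁻¹})
    (hC : C.index = 0) {e e' : H →L[ℂ] H} (he : Mn lam R ξ 𝒰 C e) (he' : Mn lam R ξ 𝒰 C e') :
    rat lam R ξ 𝒰 Θ₀ C e = rat lam R ξ 𝒰 Θ₀ C e' := by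
  have rel : ∀ (w : Λ) (e e' : H →L[ℂ] H), Mn lam R ξ 𝒰 C e → Mn lam R ξ 𝒰 C e' →
      (R w * e' * R w⁻¹) * e ≠ 0 → rat lam R ξ 𝒰 Θ₀ C e * (C.relIndex (cjg w C) : ℝ≥0∞) =
        rat lam R ξ 𝒰 Θ₀ C e' * ((cjg w C).relIndex C : ℝ≥0∞) := by
    intro w e e' he he' hne
    rw [rat_rel h hV he (Mn.actR h he' w) hC (by rw [index_cjg, hC]) hne, rat_actR h hV he']
  have step2 : ∀ w : Λ, ((cjg w C).relIndex C : ℝ≥0∞) ≤ (C.relIndex (cjg w C) : ℝ≥0∞) := by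
    intro w
    set s : ℝ≥0∞ := ⨆ a : {a : H →L[ℂ] H // Mn lam R ξ 𝒰 C a}, rat lam R ξ 𝒰 Θ₀ C a.1 with hs
    have hs1 : s ≤ 1 := iSup_le fun a => rat_le_one h hV a.2 hC
    have hst : s ≠ ⊤ := ne_top_of_le_ne_top ENNReal.one_ne_top hs1
    have hs0 : s ≠ 0 := by
      intro h0
      apply rat_ne_zero h hV he
      have h1 : rat lam R ξ 𝒰 Θ₀ C e ≤ s :=
        le_iSup (fun a : {a : H →L[ℂ] H // Mn lam R ξ 𝒰 C a} => rat lam R ξ 𝒰 Θ₀ C a.1) ⟨e, he⟩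
      exact le_antisymm (h0 ▸ h1) zero_le
    have h1 : s * ((cjg w C).relIndex C : ℝ≥0∞) ≤ s * (C.relIndex (cjg w C) : ℝ≥0∞) := by
      conv_lhs => rw [hs, ENNReal.iSup_mul]
      refine iSup_le fun a => ?_
      have hf := Mn.actR h a.2 w
      obtain ⟨b, hb, hne⟩ : ∃ b, Mn lam R ξ 𝒰 C b ∧ (R w * a.1 * R w⁻¹) * b ≠ 0 := by
        by_contra hcon
        push Not at hcon
        have h2 := kill (T := R w * a.1 * R w⁻¹) (D := C) hcon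
        rw [PP_eq_one h hV hΛ hC he, mul_one] at h2
        exact hf.ne h2
      rw [← rel w b a.1 hb a.2 hne]
      gcongr
      exact le_iSup (fun a : {a : H →L[ℂ] H // Mn lam R ξ 𝒰 C a} => rat lam R ξ 𝒰 Θ₀ C a.1) ⟨b, hb⟩
    exact (ENNReal.mul_le_mul_iff_right hs0 hst).mp h1
  have step3 : ∀ e e' : H →L[ℂ] H, Mn lam R ξ 𝒰 C e → Mn lam R ξ 𝒰 C e' →
      rat lam R ξ 𝒰 Θ₀ C e ≤ rat lam R ξ 𝒰 Θ₀ C e' := by
    intro e e' he he'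
    obtain ⟨ζ, hζ⟩ : ∃ ζ, e ζ ≠ 0 := by
      by_contra hne
      push Not at hne
      exact he.ne (ContinuousLinearMap.ext hne)
    obtain ⟨w, hw⟩ : ∃ w : Λ, (R w * e' * R w⁻¹) * e ≠ 0 := by
      by_contra hcon
      push Not at hcon
      have h1 := K_eq h he'.mem (e ζ)
      have h2 : H628.sq C (fn R (e ζ) e') = 0 := by
        unfold H628.sq
        rw [ENNReal.tsum_eq_zero]
        intro q
        unfold fn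
        have h3 := congrArg (fun S : H →L[ℂ] H => S ζ) (hcon q.out)
        simp only [H160.mul_ap, zero_apply] at h3
        have h4 := congrArg (fun v => R q.out⁻¹ v) h3
        simp only [map_zero] at h4
        rw [h.regR.inv_apply] at h4
        rw [h4]
        simp
      rw [h2] at h1
      have h5 : nn R C ξ e' * ‖e ζ‖ₑ ^ 2 ≠ 0 :=
        mul_ne_zero (nn_ne_zero h he') (pow_ne_zero 2 (by simpa using hζ))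
      exact h5 h1.symm
    have h1 := rel w e e' he he' hw
    have hb0 : (C.relIndex (cjg w C) : ℝ≥0∞) ≠ 0 := by
      exact_mod_cast (mem_Cmr.mp (Cmr_eq_top h hV hΛ hC he w)).2
    have h2 : rat lam R ξ 𝒰 Θ₀ C e * (C.relIndex (cjg w C) : ℝ≥0∞) ≤
        rat lam R ξ 𝒰 Θ₀ C e' * (C.relIndex (cjg w C) : ℝ≥0∞) := by
      rw [h1]
      gcongr
      exact_mod_cast step2 w
    rw [mul_comm, mul_comm (rat lam R ξ 𝒰 Θ₀ C e')] at h2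
    exact (ENNReal.mul_le_mul_iff_right hb0 (by simp)).mp h2
  exact le_antisymm (step3 e e' he he') (step3 e' e he' he)

end Vale.Agent.P092.H945
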