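import Vale.Agent.P092.H628.TorBound
import Vale.Agent.P092.H632.MinP

/-!
Torsion theorem: comparison of minimal projections for two subgroups.
-/

set_option linter.all false

open scoped InnerProductSpace ENNReal
open Filter Topology ContinuousLinearMap

namespace Vale.Agent.P092.H945

open Vale.Agent.P092.H160 (RegRep Cmm)
open Vale.Agent.P092.H628

variable {Γ Λ : Type} [Group Γ] [Group Λ] {H : Type} [NormedAddCommGroup H]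
  [InnerProductSpace ℂ H] [CompleteSpace H]

/-- `A† A` commutes with a unitary which preserves `‖A ·‖`. -/
theorem comm_of_norm {F : Type*} [NormedAddCommGroup F] [InnerProductSpace ℂ F] [CompleteSpace F]
    (A : H →L[ℂ] F) {V V' : H →L[ℂ] H} (hV : adjoint V = V') (hVV : V * V' = 1)
    (h : ∀ ζ, ‖A (V ζ)‖ = ‖A ζ‖) : (adjoint A ∘L A) * V = V * (adjoint A ∘L A) := by
  have h1 : V' * (adjoint A ∘L A) * V = adjoint A ∘L A := by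
    rw [← sub_eq_zero]
    have h2 : ∀ ζ, ⟪(V' * (adjoint A ∘L A) * V - adjoint A ∘L A) ζ, ζ⟫_ℂ = 0 := by
      intro ζ
      rw [sub_apply, inner_sub_left, sub_eq_zero]
      change ⟪V' (adjoint A (A (V ζ))), ζ⟫_ℂ = ⟪adjoint A (A ζ), ζ⟫_ℂ
      rw [← hV, adjoint_inner_left, adjoint_inner_left, adjoint_inner_left,
        inner_self_eq_norm_sq_to_K, inner_self_eq_norm_sq_to_K, h]
    ext ζ
    have := (inner_map_self_eq_zero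
      ((V' * (adjoint A ∘L A) * V - adjoint A ∘L A : H →L[ℂ] H) : H →ₗ[ℂ] H)).mp h2
    exact congrArg (fun T : H →ₗ[ℂ] H => T ζ) this
  calc (adjoint A ∘L A) * V = V * V' * (adjoint A ∘L A) * V := by rw [hVV, one_mul]
    _ = V * (V' * (adjoint A ∘L A) * V) := by simp only [mul_assoc]
    _ = V * (adjoint A ∘L A) := by rw [h1]

variable {lam : Γ →* (H →L[ℂ] H)} {R : Λ →* (H →L[ℂ] H)} {ξ : H} {𝒰 : Set (Subgroup Γ)}
  {Θ₀ : Subgroup Γ} {C D : Subgroup Λ} {e f : H →L[ℂ] H}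

theorem proj_enorm_le {e : H →L[ℂ] H} (ha : adjoint e = e) (hi : e * e = e) (ζ : H) :
    ‖e ζ‖ₑ ≤ ‖ζ‖ₑ := by
  have h1 : ‖e ζ‖ ^ 2 ≤ ‖e ζ‖ * ‖ζ‖ := by
    have h2 : ⟪e ζ, e ζ⟫_ℂ = ⟪ζ, e ζ⟫_ℂ := by
      have h3 := adjoint_inner_left e (e ζ) ζ
      rwa [ha, ← H160.mul_ap, hi] at h3
    have h3 : ‖e ζ‖ ^ 2 = ‖⟪ζ, e ζ⟫_ℂ‖ := by
      rw [← h2, inner_self_eq_norm_sq_to_K]
      simp
    rw [h3, mul_comm]
    exact norm_inner_le_norm _ _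
  have h4 : ‖e ζ‖ ≤ ‖ζ‖ := by
    rcases eq_or_lt_of_le (norm_nonneg (e ζ)) with h0 | h0
    · rw [← h0]; exact norm_nonneg _
    · rw [pow_two] at h1
      exact le_of_mul_le_mul_left h1 h0
  rw [← ofReal_norm_eq_enorm, ← ofReal_norm_eq_enorm]
  exact ENNReal.ofReal_le_ofReal h4

theorem inner_proj {e : H →L[ℂ] H} (ha : adjoint e = e) (hi : e * e = e) (ζ : H) :
    ⟪ζ, e ζ⟫_ℂ = ((‖e ζ‖ ^ 2 : ℝ) : ℂ) := by
  have h2 : ⟪e ζ, e ζ⟫_ℂ = ⟪ζ, e ζ⟫_ℂ := by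
    have h3 := adjoint_inner_left e (e ζ) ζ
    rwa [ha, ← H160.mul_ap, hi] at h3
  rw [← h2, inner_self_eq_norm_sq_to_K]
  norm_cast

theorem cmp_aux (h : Sys lam R ξ 𝒰) (he : Mn lam R ξ 𝒰 C e)
    (hf : Mn lam R ξ 𝒰 D f) :
    ∃ l : ℝ≥0∞, l ≠ ⊤ ∧ ∀ ζ : H,
      sq (D.subgroupOf C) (fun c : C => ‖f (R (c : Λ)⁻¹ (e ζ))‖ₑ ^ 2) = l * ‖e ζ‖ₑ ^ 2 := by
  have hfin : nn R D ξ f ≠ ⊤ := hf.mem.fin
  set c0 : ℝ := Real.sqrt (nn R D ξ f).toReal with hc0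
  have hc0' : c0 ^ 2 = (nn R D ξ f).toReal := Real.sq_sqrt ENNReal.toReal_nonneg
  have hbd : ∀ ζ : H, sq (D.subgroupOf C) (fun c : C => ‖f (R (c : Λ)⁻¹ (e ζ))‖ₑ ^ 2) ≤
      nn R D ξ f * ‖ζ‖ₑ ^ 2 := by
    intro ζ
    calc sq (D.subgroupOf C) (fun c : C => ‖f (R (c : Λ)⁻¹ (e ζ))‖ₑ ^ 2)
        ≤ sq D (fn R (e ζ) f) := sq_part C (rinv h.regR hf.mem.comR (e ζ))
      _ = nn R D ξ f * ‖e ζ‖ₑ ^ 2 := K_eq h hf.mem _
      _ ≤ nn R D ξ f * ‖ζ‖ₑ ^ 2 := by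
          gcongr
          exact proj_enorm_le he.adj he.idem ζ
  set T : C ⧸ D.subgroupOf C → H →L[ℂ] H := fun q => f * R ((q.out : C) : Λ)⁻¹ * e with hT
  have hT' : ∀ ζ : H, ∑' i, ‖T i ζ‖ₑ ^ 2 ≤ ENNReal.ofReal (c0 ^ 2 * ‖ζ‖ ^ 2) := by
    intro ζ
    refine (hbd ζ).trans (le_of_eq ?_)
    rw [hc0', ENNReal.ofReal_mul ENNReal.toReal_nonneg, ENNReal.ofReal_toReal hfin, esq]
  set A : H →L[ℂ] EE (C ⧸ D.subgroupOf C) H := col T c0 hT' with hA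
  have hAn : ∀ ζ : H, ‖A ζ‖ₑ ^ 2 =
      sq (D.subgroupOf C) (fun c : C => ‖f (R (c : Λ)⁻¹ (e ζ))‖ₑ ^ 2) := fun ζ => col_norm T c0 hT' ζ
  have hnorm : ∀ ζ ζ' : H, ‖A ζ‖ₑ ^ 2 = ‖A ζ'‖ₑ ^ 2 → ‖A ζ‖ = ‖A ζ'‖ := by
    intro ζ ζ' h1
    rw [esq, esq, ENNReal.ofReal_eq_ofReal_iff (by positivity) (by positivity)] at h1
    exact (pow_left_inj₀ (norm_nonneg _) (norm_nonneg _) two_ne_zero).mp h1
  set X : H →L[ℂ] H := adjoint A ∘L A with hX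
  -- `X` commutes with `R(C)`
  have hXC : Com R C X := by
    intro k hk
    refine comm_of_norm A (h.regR.adj k) (by rw [← map_mul, mul_inv_cancel, map_one]) fun ζ => ?_
    apply hnorm
    rw [hAn, hAn]
    have hri : RInv (D.subgroupOf C) (fun c : C => ‖f (R (c : Λ)⁻¹ (e ζ))‖ₑ ^ 2) :=
      fun c d hd => rinv h.regR hf.mem.comR (e ζ) (c : Λ) (d : Λ) hd
    rw [← sq_translate hri (⟨k, hk⟩ : C)⁻¹]
    refine sq_congr fun c => ?_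
    congr 2
    rw [he.mem.comR.apply hk, ← H160.mul_ap (R _), ← map_mul]
    congr 2
    simp
  obtain ⟨U₁, hU₁, hl₁, _, _⟩ := he.mem
  obtain ⟨U₂, hU₂, hl₂, _, _⟩ := hf.mem
  have hU : U₁ ⊓ U₂ ∈ 𝒰 := h.inf _ hU₁ _ hU₂
  have hle : Com lam (U₁ ⊓ U₂) e := hl₁.mono inf_le_left
  have hlf : Com lam (U₁ ⊓ U₂) f := hl₂.mono inf_le_right
  have hXU : Com lam (U₁ ⊓ U₂) X := by
    intro k hk
    refine comm_of_norm A (h.regL.adj k) (by rw [← map_mul, mul_inv_cancel, map_one]) fun ζ => ?_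
    apply hnorm
    rw [hAn, hAn]
    refine sq_congr fun c => ?_
    rw [hle.apply hk, ← H160.mul_ap (R _) (lam k), ← h.comm, H160.mul_ap, hlf.apply hk,
      enorm_map h.regL]
  have hAe : A ∘L e = A := by
    ext ζ i
    change T i (e ζ) = T i ζ
    simp only [hT, H160.mul_ap]
    rw [← H160.mul_ap e e, he.idem]
  have hXe : X * e = X := by
    rw [hX]
    change (adjoint A ∘L A) ∘L e = _
    rw [comp_assoc, hAe]
  have hXa : adjoint X = X := by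
    rw [hX, adjoint_comp, adjoint_adjoint]
  have heX : e * X = X := by
    have := congrArg adjoint hXe
    rw [adj_mul, he.adj, hXa] at this
    exact this
  have hXfin : nn R C ξ X ≠ ⊤ := by
    rw [← hXe]
    exact nn_left_ne _ he.mem.fin
  obtain ⟨c, hc⟩ := he.min X ⟨_, hU, hXU, hXC, hXfin⟩
  rw [heX, hXe] at hc
  -- the constant is real
  have hquad : ∀ ζ : H, ((‖A ζ‖ ^ 2 : ℝ) : ℂ) = c * ((‖e ζ‖ ^ 2 : ℝ) : ℂ) := by
    intro ζ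
    have h1 : ⟪ζ, X ζ⟫_ℂ = ((‖A ζ‖ ^ 2 : ℝ) : ℂ) := by
      change ⟪ζ, adjoint A (A ζ)⟫_ℂ = _
      rw [adjoint_inner_right, inner_self_eq_norm_sq_to_K]
      norm_cast
    rw [← h1, hc, smul_apply, inner_smul_right, inner_proj he.adj he.idem]
  obtain ⟨ζ₀, hζ₀⟩ : ∃ ζ, e ζ ≠ 0 := by
    by_contra hne
    push Not at hne
    exact he.ne (ContinuousLinearMap.ext hne)
  have hcre : c = ((‖A ζ₀‖ ^ 2 / ‖e ζ₀‖ ^ 2 : ℝ) : ℂ) := by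
    have h1 := hquad ζ₀
    have h2 : ((‖e ζ₀‖ ^ 2 : ℝ) : ℂ) ≠ 0 := by
      have : ‖e ζ₀‖ ≠ 0 := norm_ne_zero_iff.mpr hζ₀
      exact_mod_cast pow_ne_zero 2 this
    rw [Complex.ofReal_div, h1, mul_div_cancel_right₀ _ h2]
  set l : ℝ := ‖A ζ₀‖ ^ 2 / ‖e ζ₀‖ ^ 2 with hl
  have hl0 : 0 ≤ l := by positivity
  refine ⟨ENNReal.ofReal l, ENNReal.ofReal_ne_top, fun ζ => ?_⟩
  rw [← hAn, esq, esq, ← ENNReal.ofReal_mul hl0]
  congr 1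
  have h1 := hquad ζ
  rw [hcre] at h1
  exact_mod_cast h1

theorem cmp_N (h : Sys lam R ξ 𝒰) (he : Mn lam R ξ 𝒰 C e)
    (hf : Mn lam R ξ 𝒰 D f) {l : ℝ≥0∞}
    (hl : ∀ ζ : H, sq (D.subgroupOf C) (fun c : C => ‖f (R (c : Λ)⁻¹ (e ζ))‖ₑ ^ 2) =
      l * ‖e ζ‖ₑ ^ 2) :
    l * nn R C ξ e = nn R (C ⊓ D) ξ (f * e) := by
  have hcom : Com R (C ⊓ D) (f * e) :=
    (hf.mem.comR.mono inf_le_right).mul (he.mem.comR.mono inf_le_left)
  have h1 : nn R (C ⊓ D) ξ (f * e) =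
      sq C (fun v => sq ((C ⊓ D).subgroupOf C) (fun c : C => fn R ξ (f * e) (v * c))) :=
    sq_sub inf_le_left (rinv h.regR hcom ξ)
  rw [h1, Subgroup.inf_subgroupOf_left]
  unfold nn
  rw [← sq_mul_left]
  refine sq_congr fun v => ?_
  unfold fn
  rw [← hl]
  refine sq_congr fun c => ?_
  rw [H160.mul_ap, mul_inv_rev, map_mul, H160.mul_ap, he.mem.comR.apply (C.inv_mem c.2)]

theorem cmp_M (h : Sys lam R ξ 𝒰) (he : Mn lam R ξ 𝒰 C e)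
    (hf : Mn lam R ξ 𝒰 D f) {l : ℝ≥0∞}
    (hl : ∀ ζ : H, sq (D.subgroupOf C) (fun c : C => ‖f (R (c : Λ)⁻¹ (e ζ))‖ₑ ^ 2) =
      l * ‖e ζ‖ₑ ^ 2) {U : Subgroup Γ} (hUe : Com lam U e) (hUf : Com lam U f) :
    l * nn lam U ξ e = ENat.card (C ⧸ D.subgroupOf C) * nn lam U ξ (f * e) := by
  have h1 : l * nn lam U ξ e = ∑' q : C ⧸ D.subgroupOf C,
      nn lam U ξ (f * R ((q.out : C) : Λ)⁻¹ * e) := by
    unfold nn
    rw [← sq_tsum, ← sq_mul_left]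
    refine sq_congr fun g => ?_
    unfold fn
    rw [← hl]
    rfl
  have h2 : ∀ q : C ⧸ D.subgroupOf C,
      nn lam U ξ (f * R ((q.out : C) : Λ)⁻¹ * e) = nn lam U ξ (f * e) := by
    intro q
    have h3 : f * R ((q.out : C) : Λ)⁻¹ * e = f * e * R ((q.out : C) : Λ)⁻¹ := by
      rw [mul_assoc, mul_assoc, he.mem.comR _ (C.inv_mem (q.out : C).2)]
    rw [h3]
    refine nn_isom_right h.regL (hUf.mul hUe) (fun k _ => (h.comm k _).symm) fun v => ?_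
    rw [h.regR.adj, enorm_map h.regR]
  rw [h1]
  simp only [h2]
  rw [ENNReal.tsum_const]

end Vale.Agent.P092.H945
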