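import Mathlib

/-!
Sums over left cosets in `ℝ≥0∞`.
-/

set_option linter.all false

open scoped ENNReal

namespace Vale.Agent.P092.H945

variable {G : Type*} [Group G]

/-- Sum over the left cosets of `D`, evaluated on representatives. -/
noncomputable def cs (D : Subgroup G) (F : G → ℝ≥0∞) : ℝ≥0∞ := ∑' q : G ⧸ D, F q.out

/-- Right invariance of a function under a subgroup. -/
def Inv (D : Subgroup G) (F : G → ℝ≥0∞) : Prop := ∀ g, ∀ d ∈ D, F (g * d) = F g

theorem Inv.mono {D D' : Subgroup G} (h : D' ≤ D) {F : G → ℝ≥0∞} (hF : Inv D F) : Inv D' F :=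
  fun g d hd => hF g d (h hd)

theorem Inv.out {D : Subgroup G} {F : G → ℝ≥0∞} (hF : Inv D F) (g : G) :
    F (g : G ⧸ D).out = F g := by
  obtain ⟨h, hh⟩ := QuotientGroup.mk_out_eq_mul D g
  rw [hh, hF g h h.2]

theorem Inv.eq_of_mk {D : Subgroup G} {F : G → ℝ≥0∞} (hF : Inv D F) {g h : G}
    (hgh : (g : G ⧸ D) = h) : F g = F h := by
  rw [← hF.out g, hgh, hF.out h]

theorem cs_congr {D : Subgroup G} {F F' : G → ℝ≥0∞} (h : ∀ g, F g = F' g) : cs D F = cs D F' := by
  unfold cs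
  exact tsum_congr fun q => h _

theorem cs_mono {D : Subgroup G} {F F' : G → ℝ≥0∞} (h : ∀ g, F g ≤ F' g) : cs D F ≤ cs D F' :=
  ENNReal.tsum_le_tsum fun q => h _

theorem cs_add {D : Subgroup G} {F F' : G → ℝ≥0∞} :
    cs D (fun g => F g + F' g) = cs D F + cs D F' := ENNReal.tsum_add

theorem cs_mul_left {D : Subgroup G} {F : G → ℝ≥0∞} (a : ℝ≥0∞) :
    cs D (fun g => a * F g) = a * cs D F := ENNReal.tsum_mul_left

theorem cs_tsum {D : Subgroup G} {ι : Type*} {F : ι → G → ℝ≥0∞} :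
    cs D (fun g => ∑' i, F i g) = ∑' i, cs D (F i) := ENNReal.tsum_comm

theorem cs_sum {D : Subgroup G} {ι : Type*} {F : ι → G → ℝ≥0∞} (s : Finset ι) :
    cs D (fun g => ∑ i ∈ s, F i g) = ∑ i ∈ s, cs D (F i) := by
  unfold cs
  exact Summable.tsum_finsetSum fun i _ => ENNReal.summable

theorem le_cs {D : Subgroup G} {F : G → ℝ≥0∞} (hF : Inv D F) (g : G) : F g ≤ cs D F := by
  rw [← hF.out g]
  exact ENNReal.le_tsum (f := fun q : G ⧸ D => F q.out) (g : G ⧸ D)

theorem cs_eq_zero {D : Subgroup G} {F : G → ℝ≥0∞} (hF : Inv D F) (h : cs D F = 0) (g : G) :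
    F g = 0 := le_antisymm (h ▸ le_cs hF g) zero_le

/-- A finite family of elements in different cosets. -/
theorem sum_le_cs {D : Subgroup G} {F : G → ℝ≥0∞} (hF : Inv D F) {ι : Type*} (s : Finset ι)
    (c : ι → G) (hc : Set.InjOn (fun i => (c i : G ⧸ D)) s) : ∑ i ∈ s, F (c i) ≤ cs D F := by
  classical
  calc ∑ i ∈ s, F (c i) = ∑ i ∈ s, F ((c i : G ⧸ D).out) :=
        Finset.sum_congr rfl fun i _ => (hF.out (c i)).symm
    _ = ∑ q ∈ s.image (fun i => (c i : G ⧸ D)), F q.out := by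
        rw [Finset.sum_image hc]
    _ ≤ cs D F := ENNReal.sum_le_tsum _

theorem cs_left {D : Subgroup G} {F : G → ℝ≥0∞} (hF : Inv D F) (w : G) :
    cs D (fun g => F (w * g)) = cs D F := by
  unfold cs
  rw [← Equiv.tsum_eq (MulAction.toPerm w : Equiv.Perm (G ⧸ D)) (fun q => F q.out)]
  refine tsum_congr fun q => ?_
  apply hF.eq_of_mk
  rw [QuotientGroup.out_eq']
  change _ = w • q
  conv_rhs => rw [← QuotientGroup.out_eq' q]
  rfl

theorem cs_tower {D D' : Subgroup G} (h : D' ≤ D) {F : G → ℝ≥0∞} (hF : Inv D' F) :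
    cs D' F = cs D (fun g => ∑' c : D ⧸ D'.subgroupOf D, F (g * (c.out : D))) := by
  unfold cs
  rw [← Equiv.tsum_eq (Subgroup.quotientEquivProdOfLE h).symm (fun q => F q.out)]
  rw [ENNReal.tsum_prod']
  refine tsum_congr fun q => tsum_congr fun c => ?_
  apply hF.eq_of_mk
  rw [QuotientGroup.out_eq']
  conv_lhs => rw [← QuotientGroup.out_eq' c]
  rfl

theorem cs_index {D D' : Subgroup G} (h : D' ≤ D) {F : G → ℝ≥0∞} (hF : Inv D F)
    (hfin : D'.relIndex D ≠ 0) : cs D' F = (D'.relIndex D : ℝ≥0∞) * cs D F := by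
  haveI : (D'.subgroupOf D).FiniteIndex := ⟨hfin⟩
  haveI : Fintype (D ⧸ D'.subgroupOf D) := Subgroup.fintypeQuotientOfFiniteIndex
  rw [cs_tower h (hF.mono h), ← cs_mul_left]
  refine cs_congr fun g => ?_
  have h1 : ∀ c : D ⧸ D'.subgroupOf D, F (g * (c.out : D)) = F g := fun c =>
    hF g _ (c.out : D).2
  simp only [h1]
  rw [tsum_fintype, Finset.sum_const, nsmul_eq_mul]
  congr 1
  rw [Subgroup.relIndex, Subgroup.index_eq_card, Nat.card_eq_fintype_card, Finset.card_univ]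

theorem cs_infinite {D D' : Subgroup G} (h : D' ≤ D) {F : G → ℝ≥0∞} (hF : Inv D F)
    (hfin : D'.relIndex D = 0) (hlt : cs D' F ≠ ⊤) (g : G) : F g = 0 := by
  haveI : Infinite (D ⧸ D'.subgroupOf D) := by
    rw [← not_finite_iff_infinite]
    intro hf
    exact (Subgroup.finiteIndex_of_finite_quotient (H := D'.subgroupOf D)).index_ne_zero hfin
  by_contra hne
  apply hlt
  rw [cs_tower h (hF.mono h)]
  have h1 : ∀ c : D ⧸ D'.subgroupOf D, F ((g : G ⧸ D).out * (c.out : D)) = F g := fun c => by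
    rw [hF _ _ (c.out : D).2, hF.out]
  unfold cs
  have h2 : ∑' c : D ⧸ D'.subgroupOf D, F ((g : G ⧸ D).out * (c.out : D)) = ⊤ := by
    simp only [h1]
    exact ENNReal.tsum_const_eq_top_of_ne_zero hne
  exact ENNReal.tsum_eq_top_of_eq_top ⟨(g : G ⧸ D), h2⟩

/-- The conjugate subgroup `w D w⁻¹`. -/
def cj (w : G) (D : Subgroup G) : Subgroup G := D.map (MulAut.conj w).toMonoidHom

theorem mem_cj {w : G} {D : Subgroup G} {x : G} : x ∈ cj w D ↔ w⁻¹ * x * w ∈ D := by
  unfold cj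
  rw [Subgroup.mem_map]
  constructor
  · rintro ⟨y, hy, rfl⟩
    simpa [mul_assoc] using hy
  · intro h
    exact ⟨_, h, by simp [mul_assoc]⟩

theorem Inv.cj {D : Subgroup G} {F : G → ℝ≥0∞} (hF : Inv D F) (w : G) :
    Inv (cj w D) (fun g => F (g * w)) := by
  intro g d hd
  rw [mem_cj] at hd
  have := hF (g * w) _ hd
  simp only
  rw [← this]
  congr 1
  group

/-- `G ⧸ w D w⁻¹ ≃ G ⧸ D`, `g ↦ g w`. -/
def cjEquiv (w : G) (D : Subgroup G) : G ⧸ cj w D ≃ G ⧸ D where
  toFun := Quotient.map' (fun g => g * w) fun a b hab => by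
    rw [QuotientGroup.leftRel_apply] at hab ⊢
    rw [mem_cj] at hab
    convert hab using 1
    group
  invFun := Quotient.map' (fun g => g * w⁻¹) fun a b hab => by
    rw [QuotientGroup.leftRel_apply] at hab ⊢
    rw [mem_cj]
    convert hab using 1
    group
  left_inv := by
    refine Quotient.ind' fun a => ?_
    simp only [Quotient.map'_mk'', mul_assoc, mul_inv_cancel, mul_one]
  right_inv := by
    refine Quotient.ind' fun a => ?_
    simp only [Quotient.map'_mk'', mul_assoc, inv_mul_cancel, mul_one]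

theorem cs_cj {D : Subgroup G} {F : G → ℝ≥0∞} (hF : Inv D F) (w : G) :
    cs (cj w D) (fun g => F (g * w)) = cs D F := by
  unfold cs
  rw [← Equiv.tsum_eq (cjEquiv w D) (fun q => F q.out)]
  refine tsum_congr fun q => ?_
  apply hF.eq_of_mk
  rw [QuotientGroup.out_eq']
  conv_rhs => rw [← QuotientGroup.out_eq' q]
  rfl

/-- `(G ⧸ D) × D ≃ G`. -/
noncomputable def outEquiv (D : Subgroup G) : (G ⧸ D) × D ≃ G where
  toFun p := p.1.out * p.2
  invFun g := ((g : G ⧸ D), ⟨(g : G ⧸ D).out⁻¹ * g, by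
    rw [← QuotientGroup.eq, QuotientGroup.out_eq']⟩)
  left_inv := by
    rintro ⟨q, d⟩
    have h : ((q.out * (d : G) : G) : G ⧸ D) = q := by
      rw [QuotientGroup.mk_mul_of_mem _ d.2, QuotientGroup.out_eq']
    ext
    · exact h
    · simp only
      rw [h]
      group
  right_inv := by
    intro g
    simp only
    group

theorem tsum_group (D : Subgroup G) (f : G → ℝ≥0∞) :
    ∑' g, f g = ∑' q : G ⧸ D, ∑' d : D, f (q.out * d) := by
  rw [← Equiv.tsum_eq (outEquiv D) f, ENNReal.tsum_prod']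
  rfl

theorem cs_swap {D : Subgroup G} {k : G → G → ℝ≥0∞}
    (hk : ∀ g h, ∀ d ∈ D, k (g * d) (h * d) = k g h) :
    cs D (fun h => ∑' g, k g h) = cs D (fun g => ∑' h, k g h) := by
  unfold cs
  have h1 : ∀ q : G ⧸ D, ∑' g, k g q.out = ∑' p : G ⧸ D, ∑' d : D, k (p.out * d) q.out :=
    fun q => tsum_group D _
  have h2 : ∀ p : G ⧸ D, ∑' h, k p.out h = ∑' q : G ⧸ D, ∑' d : D, k p.out (q.out * d) :=
    fun q => tsum_group D _
  simp only [h1, h2]
  rw [ENNReal.tsum_comm]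
  refine tsum_congr fun p => tsum_congr fun q => ?_
  rw [← Equiv.tsum_eq (Equiv.inv D) (fun d : D => k p.out (q.out * d))]
  refine tsum_congr fun d => ?_
  have := hk p.out (q.out * ((d⁻¹ : D) : G)) d d.2
  simp only [Equiv.inv_apply]
  rw [← this, mul_assoc]
  simp

end Vale.Agent.P092.H945
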